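import Vale.Agent.P157.Parisi.Perturb.Basic

/-! The variance of the perturbed log partition function. -/

noncomputable section

open MeasureTheory ProbabilityTheory
open scoped BigOperators NNReal ENNReal

namespace Vale.Agent.P157.Parisi.Perturb

open Vale.Agent.P168.Limit (gw logZ gav rav)
open Vale.Agent.P168.Limit.SelfAvg (field field_variance abs_logZ_sub_le' integrable_logZ_field
  variance_prod_le abs_integral_sub_le)
open Vale.Agent.P168.Toolkit (efronStein variance_le_of_dist memLp_sections abs_le_linear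
  integrable_count integrable_count_sq integral_count integral_count_sq)

variable {N L : ℕ} {f : ℝ → ℝ} {A : ℝ}

/-- A Lipschitz function of a Poisson count has variance at most `B² μ`. -/
lemma variance_poisson_le {μ : ℝ≥0} {g : ℕ → ℝ} {B : ℝ} (hg : MemLp g 2 (poissonMeasure μ))
    (hs : ∀ n, |g (n + 1) - g n| ≤ B) : variance g (poissonMeasure μ) ≤ B ^ 2 * μ := by
  have hlip : ∀ n m : ℕ, |g n - g m| ≤ B * |(n : ℝ) - m| := by
    intro n m
    rcases le_total n m with h | h
    · obtain ⟨k, rfl⟩ := Nat.exists_eq_add_of_le h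
      rw [abs_sub_comm]
      exact (abs_le_linear hs n k).trans_eq (by simp)
    · obtain ⟨k, rfl⟩ := Nat.exists_eq_add_of_le h
      exact (abs_le_linear hs m k).trans_eq (by simp)
  have i1 : Integrable (fun n : ℕ => (n : ℝ) ^ 2) (poissonMeasure μ) := integrable_count_sq μ
  refine (variance_le_of_dist hg (d := fun n m => B * |(n : ℝ) - m|) ?_ hlip).trans_eq ?_
  · refine (((i1.comp_fst _).add (i1.comp_snd _)).const_mul (2 * B ^ 2)).mono'
      Measurable.of_discrete.aestronglyMeasurable (ae_of_all _ fun q => ?_)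
    simp only [Pi.add_apply, mul_pow, sq_abs, Real.norm_eq_abs]
    rw [abs_of_nonneg (by positivity)]
    nlinarith [sq_nonneg B, sq_nonneg ((q.1 : ℝ) + q.2)]
  · simp only [mul_pow, sq_abs, integral_const_mul]
    have e : ∀ a : ℕ, ∫ b, ((a : ℝ) - b) ^ 2 ∂poissonMeasure μ =
        (a : ℝ) ^ 2 + ((-2 * (a : ℝ)) * μ + (μ ^ 2 + μ)) := by
      intro a
      have h1 : ∀ b : ℕ, ((a : ℝ) - b) ^ 2 =
          (a : ℝ) ^ 2 + ((-2 * (a : ℝ)) * b + (b : ℝ) ^ 2) := fun b => by ring
      have i2 : Integrable (fun b : ℕ => (-2 * (a : ℝ)) * b + (b : ℝ) ^ 2) (poissonMeasure μ) :=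
        ((integrable_count μ).const_mul _).add i1
      simp_rw [h1]
      rw [integral_add (integrable_const _) i2,
        integral_add ((integrable_count μ).const_mul _) i1, integral_const_mul,
        integral_count, integral_count_sq]
      simp
    simp_rw [e]
    have i3 : Integrable (fun a : ℕ => (-2 * (a : ℝ)) * μ + ((μ : ℝ) ^ 2 + μ)) (poissonMeasure μ) :=
      (((integrable_count μ).const_mul _).mul_const _).add (integrable_const _)
    rw [integral_add i1 i3,
      integral_add (((integrable_count μ).const_mul _).mul_const _) (integrable_const _),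
      integral_mul_const, integral_const_mul, integral_count_sq, integral_count]
    simp only [integral_const, probReal_univ, one_smul]
    ring

/-- A bound on the mean absolute deviation by the variance. -/
lemma mean_abs_dev_le {Ω : Type*} [MeasurableSpace Ω] {ν : Measure Ω} [IsProbabilityMeasure ν]
    {X : Ω → ℝ} (hX : MemLp X 2 ν) {W b : ℝ} (hW : variance X ν ≤ W) (hb : 0 < b) :
    ∫ ω, |X ω - ∫ ω', X ω' ∂ν| ∂ν ≤ W / (2 * b) + b / 2 := by
  rw [variance_eq_integral hX.aestronglyMeasurable.aemeasurable] at hW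
  set m := ∫ ω', X ω' ∂ν
  have i2 : Integrable (fun d => (X d - m) ^ 2) ν := (hX.sub (memLp_const m)).integrable_sq
  have i3 : Integrable (fun d => |X d - m|) ν :=
    (((hX.sub (memLp_const m)).integrable one_le_two)).abs
  refine (integral_mono i3 ((i2.div_const (2 * b)).add (integrable_const (b / 2))) fun d => ?_).trans ?_
  · simp only [Pi.add_apply]
    rw [← sub_nonneg]
    have e : (X d - m) ^ 2 / (2 * b) + b / 2 - |X d - m| = (|X d - m| - b) ^ 2 / (2 * b) := by
      rw [← sq_abs (X d - m)]; field_simp; ring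
    rw [e]; positivity
  simp only [Pi.add_apply]
  rw [integral_add (i2.div_const _) (integrable_const _), integral_div (2 * b)]
  simp only [integral_const, probReal_univ, one_smul]
  gcongr

/-- The mean over the perturbation at given patterns. -/
def psi (f : ℝ → ℝ) (s : ℝ) (x : Fin L → ℝ) (I : Finset ℕ) (c : I → Fin N → ℝ) : ℝ :=
  ∫ J, logZ (fun σ => patH f I c σ + field (fun τ i => s * x i.1 * feat i τ) J σ)
    ∂gam (PertIdx N L)

lemma abs_psi_sub_le (s : ℝ) (x : Fin L → ℝ) (I : Finset ℕ) (c c' : I → Fin N → ℝ) {a : ℝ}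
    (h : ∀ σ, |patH f I c' σ - patH f I c σ| ≤ a) :
    |psi f s x I c - psi f s x I c'| ≤ a := by
  rw [abs_sub_comm]
  refine abs_integral_sub_le (integrable_logZ_field _ _) (integrable_logZ_field _ _) fun J => ?_
  have h' := abs_logZ_sub_le' (fun σ => patH f I c σ +
    field (fun τ i => s * x i.1 * feat i τ) J σ) (fun σ => patH f I c' σ - patH f I c σ) h
  exact le_trans (le_of_eq (congrArg (fun H => |logZ H - _|) (funext fun σ => by ring))) h'

lemma sum_quarter_le (L : ℕ) : ∑ P : Fin L, (1 / 4 : ℝ) ^ (P.val + 1) ≤ 1 / 3 := by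
  rw [Fin.sum_univ_eq_sum_range fun p => (1 / 4 : ℝ) ^ (p + 1)]
  have e : ∀ n : ℕ, ∑ p ∈ Finset.range n, (1 / 4 : ℝ) ^ (p + 1) = (1 - (1 / 4) ^ n) / 3 := by
    intro n
    induction n with
    | zero => simp
    | succ n ih => rw [Finset.sum_range_succ, ih, pow_succ]; ring
  rw [e]
  have : (0 : ℝ) ≤ (1 / 4) ^ L := by positivity
  linarith

lemma field_part_variance [NeZero N] (s : ℝ) {x : Fin L → ℝ} (hx : ∀ P, |x P| ≤ 3)
    (H : Cube N → ℝ) :
    variance (fun J => logZ fun σ => H σ + field (fun τ c => s * x c.1 * feat c τ) J σ)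
      (gam (PertIdx N L)) ≤ 3 * s ^ 2 := by
  refine (field_variance H _ (L := fun c => |s| * 3 * ((1 / 2) ^ (c.1.val + 1) *
    ((Real.sqrt N)⁻¹) ^ (c.1.val + 1))) fun σ c => ?_).trans ?_
  · rw [abs_mul, abs_mul, abs_feat]
    gcongr
    exact hx _
  rw [Fintype.sum_sigma]
  have e : ∀ P : Fin L, ∑ _v : Fin (P.val + 1) → Fin N, (|s| * 3 * ((1 / 2 : ℝ) ^ (P.val + 1) *
      ((Real.sqrt N)⁻¹) ^ (P.val + 1))) ^ 2 = 9 * s ^ 2 * (1 / 4) ^ (P.val + 1) := by
    intro P
    have hN : (N : ℝ) * (Real.sqrt N)⁻¹ ^ 2 = 1 := by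
      rw [inv_pow, Real.sq_sqrt (Nat.cast_nonneg _), mul_inv_cancel₀]
      exact_mod_cast NeZero.ne N
    simp only [Finset.sum_const, Finset.card_univ, Fintype.card_fun, Fintype.card_fin, nsmul_eq_mul,
      Nat.cast_pow]
    rw [mul_pow, mul_pow, mul_pow, sq_abs, ← pow_mul, ← pow_mul, mul_comm (P.val + 1) 2, pow_mul,
      pow_mul]
    have : (N : ℝ) ^ (P.val + 1) * ((Real.sqrt N)⁻¹ ^ 2) ^ (P.val + 1) = 1 := by
      rw [← mul_pow, hN, one_pow]
    calc _ = 9 * s ^ 2 * ((1 / 2 : ℝ) ^ 2) ^ (P.val + 1) *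
          ((N : ℝ) ^ (P.val + 1) * ((Real.sqrt N)⁻¹ ^ 2) ^ (P.val + 1)) := by ring
      _ = _ := by rw [this]; norm_num
  simp only [e, ← Finset.mul_sum]
  calc 9 * s ^ 2 * ∑ P : Fin L, (1 / 4 : ℝ) ^ (P.val + 1) ≤ 9 * s ^ 2 * (1 / 3) :=
        mul_le_mul_of_nonneg_left (sum_quarter_le L) (by positivity)
    _ = 3 * s ^ 2 := by ring

lemma memLp_section [NeZero N] (hf : Continuous f) (hb : ∀ z, |f z| ≤ A) (s : ℝ) (x : Fin L → ℝ)
    (n : ℕ) : MemLp (fun w : (ℕ → Fin N → ℝ) × (PertIdx N L → ℝ) => logZ (totalH f s x (n, w))) 2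
      ((Measure.infinitePi fun _ : ℕ => gam (Fin N)).prod (gam (PertIdx N L))) := by
  have h : MemLp (absJ (N := N) (L := L)) 2 (gam (PertIdx N L)) :=
    memLp_finsetSum _ fun c _ => (memLp_id_gaussianReal 2).abs.comp_measurePreserving
      (measurePreserving_eval (fun _ : PertIdx N L => gaussianReal 0 1) c)
  have h2 := (memLp_const (|logZ (fun _ : Cube N => (0 : ℝ))| + A * n)).add
    ((h.comp_snd (Measure.infinitePi fun _ : ℕ => gam (Fin N))).const_mul (|s| * ∑ P, |x P|))
  have hm : Measurable fun d : Dis N L => logZ (totalH f s x d) :=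
    (Finset.measurable_sum _ fun σ _ =>
      ((measurable_totalH hf s σ).comp measurable_prodMk_left).exp).log
  exact h2.mono (hm.comp measurable_prodMk_left).aestronglyMeasurable (ae_of_all _ fun w => by
    rw [Real.norm_eq_abs, Real.norm_eq_abs]
    exact (abs_logZ_totalH_le hb s x (n, w)).trans (le_abs_self _))

lemma measurable_psi (hf : Continuous f) (s : ℝ) (x : Fin L → ℝ) (I : Finset ℕ) :
    Measurable (psi (N := N) f s x I) := by
  have h : Measurable fun z : (I → Fin N → ℝ) × (PertIdx N L → ℝ) =>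
      logZ (fun σ => patH f I z.1 σ + field (fun τ i => s * x i.1 * feat i τ) z.2 σ) :=
    (Finset.measurable_sum Finset.univ fun (σ : Cube N) _ =>
      (((measurable_patH hf I σ).comp measurable_fst).add
      ((Vale.Agent.P168.Limit.SelfAvg.measurable_field
        (fun (τ : Cube N) (i : PertIdx N L) => s * x i.1 * feat i τ) σ).comp
          measurable_snd)).exp).log
  exact h.stronglyMeasurable.integral_prod_right'.measurable

lemma psi_variance [NeZero N] (hf : Continuous f) (hb : ∀ z, |f z| ≤ A) (s : ℝ)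
    (x : Fin L → ℝ) (I : Finset ℕ) :
    variance (psi (N := N) f s x I) (Measure.pi fun _ : I => gam (Fin N)) ≤
      2 * A ^ 2 * I.card := by
  classical
  have hm := measurable_psi (N := N) hf s x I
  have hsub : ∀ (c c' : I → Fin N → ℝ) (σ : Cube N),
      |patH f I c' σ - patH f I c σ| ≤ 2 * A * I.card := by
    intro c c' σ
    linarith [abs_patH_le hb I c σ, abs_patH_le hb I c' σ, abs_sub (patH f I c' σ) (patH f I c σ)]
  refine (efronStein _ hm (MemLp.of_bound hm.aestronglyMeasurable
    (|psi (N := N) f s x I 0| + 2 * A * I.card) (ae_of_all _ fun c => ?_))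
    (d := fun _ _ _ => 2 * A) (fun _ => integrable_const _) fun c k a => ?_).trans_eq ?_
  · have := abs_psi_sub_le (f := f) s x I c 0 (hsub c 0)
    rw [Real.norm_eq_abs]
    linarith [abs_sub_abs_le_abs_sub (psi f s x I c) (psi (N := N) f s x I 0)]
  · refine abs_psi_sub_le s x _ _ _ fun σ => ?_
    simp only [patH, ← Finset.sum_sub_distrib]
    rw [Fintype.sum_eq_single k fun j hj => by simp [Function.update_of_ne hj]]
    refine (abs_sub _ _).trans ?_
    linarith [hb (dot (Function.update c k a k) (unitVec σ)), hb (dot (c k) (unitVec σ))]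
  · simp only [integral_const, probReal_univ, one_smul, Finset.sum_const, Finset.card_univ,
      Fintype.card_coe, nsmul_eq_mul]
    ring

lemma pattern_variance [NeZero N] (hf : Continuous f) (hb : ∀ z, |f z| ≤ A) (s : ℝ)
    (x : Fin L → ℝ) (n : ℕ) :
    variance (fun g : ℕ → Fin N → ℝ => ∫ J, logZ (totalH f s x (n, g, J)) ∂gam (PertIdx N L))
      (Measure.infinitePi fun _ : ℕ => gam (Fin N)) ≤ 2 * A ^ 2 * n := by
  have e : (fun g : ℕ → Fin N → ℝ => ∫ J, logZ (totalH f s x (n, g, J)) ∂gam (PertIdx N L)) =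
      fun g => psi f s x (Finset.range n) ((Finset.range n).restrict g) := by
    funext g
    simp only [psi, totalH_eq]
    rfl
  have hn : ((Finset.range n).card : ℝ) = n := by rw [Finset.card_range]
  rw [e, ← hn]
  generalize Finset.range n = I
  have hres : MeasurePreserving I.restrict (Measure.infinitePi fun _ : ℕ => gam (Fin N))
      (Measure.pi fun _ : I => gam (Fin N)) :=
    ⟨I.measurable_restrict, Measure.infinitePi_map_restrict (μ := fun _ : ℕ => gam (Fin N))⟩
  rw [hres.variance_fun_comp (measurable_psi hf s x I).aemeasurable]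
  exact psi_variance hf hb s x I

/-- The variance bound. -/
theorem logZ_variance [NeZero N] (hf : Continuous f) (hb : ∀ z, |f z| ≤ A) (s : ℝ) {μ : ℝ}
    (hμ : 0 ≤ μ) {x : Fin L → ℝ} (hx : ∀ P, |x P| ≤ 3) :
    variance (fun d => logZ (totalH f s x d)) (disLaw N L μ) ≤ 3 * s ^ 2 + 3 * A ^ 2 * μ := by
  have hmem := memLp_logZ (N := N) hf hb s μ x
  have hsec := memLp_section (N := N) hf hb s x
  unfold disLaw at hmem ⊢
  have hg : Integrable (fun n : ℕ => 3 * s ^ 2 + 2 * A ^ 2 * (n : ℝ))
      (poissonMeasure μ.toNNReal) :=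
    (integrable_const _).add ((integrable_count _).const_mul _)
  refine le_trans (variance_prod_le (μ := poissonMeasure μ.toNNReal)
    (ν := (Measure.infinitePi fun _ : ℕ => gam (Fin N)).prod (gam (PertIdx N L)))
    (f := fun d : Dis N L => logZ (totalH f s x d)) hmem
    (g := fun n : ℕ => 3 * s ^ 2 + 2 * A ^ 2 * (n : ℝ))
    (W := 3 * s ^ 2 + 2 * A ^ 2 * μ) (V := A ^ 2 * μ) hg (fun n => ?_) ?_ ?_) (le_of_eq (by ring))
  · refine variance_prod_le (hsec n) (g := fun _ => 3 * s ^ 2) (integrable_const _) (fun g => ?_)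
      (le_of_eq (by simp)) (pattern_variance hf hb s x n)
    simp only [totalH_eq]
    exact field_part_variance s hx _
  · rw [integral_add (integrable_const _) ((integrable_count _).const_mul _),
      integral_const_mul (2 * A ^ 2), integral_count]
    simp [Real.coe_toNNReal μ hμ]
  · refine (variance_poisson_le (memLp_sections hmem).2 fun n => ?_).trans_eq
      (by rw [Real.coe_toNNReal μ hμ])
    refine abs_integral_sub_le ((hsec _).integrable one_le_two) ((hsec _).integrable one_le_two)
      fun w => ?_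
    have h := abs_logZ_sub_le' (totalH f s x (n, w))
      (fun σ => f (dot (w.1 n) (unitVec σ))) (c := A) fun σ => hb _
    refine le_trans (le_of_eq (congrArg (fun H => |logZ H - _|) (funext fun σ => ?_))) h
    simp only [totalH, Finset.sum_range_succ]
    ring

end Vale.Agent.P157.Parisi.Perturb
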