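import Vale.Agent.P157.Parisi.System
import Vale.Agent.P168.Limit.GG

/-!
The perturbation field as a sum of observables, its features, and the basic measurability and
integrability facts of the perturbed system.
-/

noncomputable section

open MeasureTheory ProbabilityTheory
open scoped BigOperators NNReal ENNReal

namespace Vale.Agent.P157.Parisi.Perturb

open Vale.Agent.P168.Limit (gw logZ gav rav)
open Vale.Agent.P168.Limit.SelfAvg (field abs_logZ_sub_le')

variable {N L : ℕ}

/-- The feature of a coordinate of the perturbation. -/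
def feat (c : PertIdx N L) (σ : Cube N) : ℝ :=
  (1 / 2) ^ (c.1.val + 1) * ∏ i, unitVec σ (c.2 i)

/-- The Gaussian observable of the power `P + 1`. -/
def gObs (P : Fin L) (J : PertIdx N L → ℝ) (σ : Cube N) : ℝ :=
  ∑ v : Fin (P.val + 1) → Fin N, J ⟨P, v⟩ * feat ⟨P, v⟩ σ

/-- The sum of the absolute values of the coordinates. -/
def absJ (J : PertIdx N L → ℝ) : ℝ := ∑ c, |J c|

lemma pertH_eq_field (s : ℝ) (x : Fin L → ℝ) (J : PertIdx N L → ℝ) (σ : Cube N) :
    pertH s x J σ = field (fun τ c => s * x c.1 * feat c τ) J σ :=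
  Finset.sum_congr rfl fun c _ => by simp only [feat]; ring

lemma pertH_eq_sum (s : ℝ) (x : Fin L → ℝ) (J : PertIdx N L → ℝ) (σ : Cube N) :
    pertH s x J σ = ∑ P, x P * (s * gObs P J σ) := by
  rw [pertH, Fintype.sum_sigma]
  refine Finset.sum_congr rfl fun P _ => ?_
  simp only [gObs, feat, Finset.mul_sum]
  exact Finset.sum_congr rfl fun v _ => by ring

lemma totalH_update (f : ℝ → ℝ) (s : ℝ) (x : Fin L → ℝ) (P : Fin L) (t : ℝ) (d : Dis N L)
    (σ : Cube N) : totalH f s (Function.update x P t) d σ =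
      totalH f s (Function.update x P 0) d σ + t * (s * gObs P d.2.2 σ) := by
  simp only [totalH, pertH_eq_sum, ← Finset.add_sum_erase _ _ (Finset.mem_univ P),
    Function.update_self]
  rw [Finset.sum_congr rfl fun Q hQ =>
      show Function.update x P t Q * (s * gObs Q d.2.2 σ) = x Q * (s * gObs Q d.2.2 σ) by
        rw [Function.update_of_ne (Finset.ne_of_mem_erase hQ)],
    Finset.sum_congr rfl fun Q hQ =>
      show Function.update x P 0 Q * (s * gObs Q d.2.2 σ) = x Q * (s * gObs Q d.2.2 σ) by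
        rw [Function.update_of_ne (Finset.ne_of_mem_erase hQ)]]
  ring

lemma sum_unitVec_mul (σ τ : Cube N) : ∑ i, unitVec σ i * unitVec τ i = overlap σ τ := by
  simp only [unitVec, overlap, div_mul_div_comm, Real.mul_self_sqrt (Nat.cast_nonneg N),
    Finset.sum_div]

lemma sum_feat_mul (P : Fin L) (σ τ : Cube N) :
    ∑ v : Fin (P.val + 1) → Fin N, feat ⟨P, v⟩ σ * feat ⟨P, v⟩ τ =
      (1 / 4) ^ (P.val + 1) * overlap σ τ ^ (P.val + 1) := by
  rw [← sum_unitVec_mul, Fintype.sum_pow, Finset.mul_sum]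
  refine Finset.sum_congr rfl fun v _ => ?_
  simp only [feat]
  rw [Finset.prod_mul_distrib, show (1 / 4 : ℝ) ^ (P.val + 1) =
    (1 / 2) ^ (P.val + 1) * (1 / 2) ^ (P.val + 1) by rw [← mul_pow]; norm_num]
  ring

lemma abs_sv (σ : Cube N) (i : Fin N) : |sv σ i| = 1 := by
  unfold sv; split_ifs <;> simp

lemma abs_overlap_le (σ τ : Cube N) : |overlap σ τ| ≤ 1 := by
  rw [overlap, abs_div, Nat.abs_cast]
  refine div_le_one_of_le₀ ?_ (Nat.cast_nonneg _)
  refine (Finset.abs_sum_le_sum_abs _ _).trans_eq ?_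
  simp [abs_mul, abs_sv]

lemma abs_overlap_pow_le (σ τ : Cube N) (k : ℕ) : |overlap σ τ ^ k| ≤ 1 := by
  rw [abs_pow]; exact pow_le_one₀ (abs_nonneg _) (abs_overlap_le _ _)

lemma overlap_self [NeZero N] (σ : Cube N) : overlap σ σ = 1 := by
  have : ∀ i, sv σ i * sv σ i = 1 := fun i => by unfold sv; split_ifs <;> norm_num
  simp [overlap, this, NeZero.ne N]

lemma abs_feat (c : PertIdx N L) (σ : Cube N) :
    |feat c σ| = (1 / 2) ^ (c.1.val + 1) * ((Real.sqrt N)⁻¹) ^ (c.1.val + 1) := by
  simp [feat, unitVec, abs_mul, Finset.abs_prod, abs_div, abs_sv, abs_of_nonneg (Real.sqrt_nonneg _)]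

lemma abs_feat_le [NeZero N] (c : PertIdx N L) (σ : Cube N) : |feat c σ| ≤ 1 := by
  rw [abs_feat, ← mul_pow]
  refine pow_le_one₀ (by positivity) ?_
  have h : (1 : ℝ) ≤ Real.sqrt N :=
    Real.one_le_sqrt.2 (by exact_mod_cast NeZero.one_le)
  exact mul_le_one₀ (by norm_num) (by positivity) (inv_le_one_of_one_le₀ h)

lemma abs_gObs_le [NeZero N] (P : Fin L) (J : PertIdx N L → ℝ) (σ : Cube N) :
    |gObs P J σ| ≤ absJ J := by
  rw [absJ, Fintype.sum_sigma]
  refine (Finset.abs_sum_le_sum_abs _ _).trans (le_trans (Finset.sum_le_sum fun v _ => ?_)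
    (Finset.single_le_sum (f := fun Q : Fin L => ∑ v : Fin (Q.val + 1) → Fin N, |J ⟨Q, v⟩|)
      (fun Q _ => Finset.sum_nonneg fun v _ => abs_nonneg _) (Finset.mem_univ P)))
  rw [abs_mul]
  exact mul_le_of_le_one_right (abs_nonneg _) (abs_feat_le _ _)

/-- The Hamiltonian of a finite set of patterns. -/
def patH (f : ℝ → ℝ) (I : Finset ℕ) (c : I → Fin N → ℝ) (σ : Cube N) : ℝ :=
  ∑ a : I, f (dot (c a) (unitVec σ))

lemma totalH_eq (f : ℝ → ℝ) (s : ℝ) (x : Fin L → ℝ) (d : Dis N L) :
    totalH f s x d = fun σ => patH f (Finset.range d.1) (fun a => d.2.1 a) σ +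
      field (fun τ c => s * x c.1 * feat c τ) d.2.2 σ := by
  funext σ
  rw [totalH, pertH_eq_field, patH,
    Finset.sum_coe_sort (Finset.range d.1) fun a => f (dot (d.2.1 a) (unitVec σ))]

variable {f : ℝ → ℝ}

lemma measurable_patH (hf : Continuous f) (I : Finset ℕ) (σ : Cube N) :
    Measurable fun c : I → Fin N → ℝ => patH f I c σ := by
  unfold patH dot
  exact (continuous_finsetSum _ fun a _ => hf.comp (by fun_prop)).measurable

lemma abs_patH_le {A : ℝ} (hb : ∀ z, |f z| ≤ A) (I : Finset ℕ) (c : I → Fin N → ℝ)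
    (σ : Cube N) : |patH f I c σ| ≤ A * I.card :=
  (Finset.abs_sum_le_sum_abs _ _).trans ((Finset.sum_le_sum fun a _ => hb _).trans_eq
    (by simp [mul_comm]))

lemma measurable_gObs (P : Fin L) (σ : Cube N) : Measurable fun J => gObs P J σ :=
  Finset.measurable_sum _ fun _ _ => (measurable_pi_apply _).mul_const _

lemma measurable_pertH (s : ℝ) (σ : Cube N) :
    Measurable fun z : (Fin L → ℝ) × (PertIdx N L → ℝ) => pertH s z.1 z.2 σ := by
  simp only [pertH_eq_sum]
  exact Finset.measurable_sum _ fun P _ => ((measurable_pi_apply P).comp measurable_fst).mul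
    (((measurable_gObs P σ).comp measurable_snd).const_mul s)

lemma measurable_totalH (hf : Continuous f) (s : ℝ) (σ : Cube N) :
    Measurable fun z : (Fin L → ℝ) × Dis N L => totalH f s z.1 z.2 σ := by
  have h : Measurable fun z : ℕ × (ℕ → Fin N → ℝ) =>
      ∑ a ∈ Finset.range z.1, f (dot (z.2 a) (unitVec σ)) := by
    refine measurable_from_prod_countable_right fun n => ?_
    show Measurable fun g : ℕ → Fin N → ℝ => ∑ a ∈ Finset.range n, f (dot (g a) (unitVec σ))
    refine Finset.measurable_sum _ fun a _ => ?_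
    show Measurable fun g : ℕ → Fin N → ℝ => f (dot (g a) (unitVec σ))
    unfold dot
    exact hf.measurable.comp (by fun_prop)
  exact (h.comp ((measurable_fst.prodMk (measurable_fst.comp measurable_snd)).comp
    measurable_snd)).add ((measurable_pertH s σ).comp
      (measurable_fst.prodMk (measurable_snd.comp (measurable_snd.comp measurable_snd))))

lemma measurable_gw (hf : Continuous f) (s : ℝ) (σ : Cube N) :
    Measurable fun z : (Fin L → ℝ) × Dis N L => gw (totalH f s z.1 z.2) σ :=
  (measurable_totalH hf s σ).exp.div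
    (Finset.measurable_sum _ fun τ _ => (measurable_totalH hf s τ).exp)

lemma measurable_rav (hf : Continuous f) (s : ℝ) (m : ℕ) (F : (Fin m → Cube N) → ℝ) :
    Measurable fun z : (Fin L → ℝ) × Dis N L => rav m (totalH f s z.1 z.2) F :=
  Finset.measurable_sum _ fun _ _ =>
    (Finset.measurable_prod _ fun _ _ => measurable_gw hf s _).mul_const _

lemma measurable_gw_fixed (hf : Continuous f) (s : ℝ) (x : Fin L → ℝ) (σ : Cube N) :
    Measurable fun d : Dis N L => gw (totalH f s x d) σ := by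
  have h : Measurable fun d : Dis N L => gw (totalH f s (x, d).1 (x, d).2) σ :=
    (measurable_gw hf s σ).comp measurable_prodMk_left
  exact h

instance isProbabilityMeasure_disLaw (N L : ℕ) (μ : ℝ) : IsProbabilityMeasure (disLaw N L μ) := by
  unfold disLaw; infer_instance

lemma memLp_absJ (μ : ℝ) : MemLp (fun d : Dis N L => absJ d.2.2) 2 (disLaw N L μ) := by
  have h : MemLp (absJ (N := N) (L := L)) 2 (gam (PertIdx N L)) :=
    memLp_finsetSum _ fun c _ => (memLp_id_gaussianReal 2).abs.comp_measurePreserving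
      (measurePreserving_eval (fun _ : PertIdx N L => gaussianReal 0 1) c)
  exact (h.comp_snd _).comp_snd _

lemma memLp_gObs [NeZero N] (μ : ℝ) (P : Fin L) (σ : Cube N) :
    MemLp (fun d : Dis N L => gObs P d.2.2 σ) 2 (disLaw N L μ) :=
  (memLp_absJ μ).mono ((measurable_gObs P σ).comp
    (measurable_snd.comp measurable_snd)).aestronglyMeasurable (ae_of_all _ fun d => by
      rw [Real.norm_eq_abs, Real.norm_eq_abs]
      exact (abs_gObs_le P _ σ).trans (le_abs_self _))

lemma abs_logZ_totalH_le [NeZero N] {A : ℝ} (hb : ∀ z, |f z| ≤ A) (s : ℝ) (x : Fin L → ℝ)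
    (d : Dis N L) : |logZ (totalH f s x d)| ≤
      |logZ (fun _ : Cube N => (0 : ℝ))| + A * d.1 + (|s| * ∑ P, |x P|) * absJ d.2.2 := by
  have h := abs_logZ_sub_le' (fun _ : Cube N => (0 : ℝ)) (totalH f s x d)
    (c := A * d.1 + (|s| * ∑ P, |x P|) * absJ d.2.2) fun σ => ?_
  · simp only [zero_add] at h
    linarith [abs_sub_abs_le_abs_sub (logZ (totalH f s x d)) (logZ fun _ : Cube N => (0 : ℝ))]
  rw [totalH_eq]
  refine (abs_add_le _ _).trans (add_le_add ((abs_patH_le hb _ _ σ).trans_eq (by simp)) ?_)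
  rw [absJ, Finset.mul_sum]
  refine (Finset.abs_sum_le_sum_abs _ _).trans (Finset.sum_le_sum fun c _ => ?_)
  rw [abs_mul, abs_mul, abs_mul]
  refine mul_le_mul_of_nonneg_right ?_ (abs_nonneg _)
  refine (mul_le_of_le_one_right (by positivity) (abs_feat_le _ _)).trans ?_
  exact mul_le_mul_of_nonneg_left (Finset.single_le_sum (f := fun P => |x P|)
    (fun _ _ => abs_nonneg _) (Finset.mem_univ c.1)) (abs_nonneg _)

lemma memLp_logZ [NeZero N] (hf : Continuous f) {A : ℝ} (hb : ∀ z, |f z| ≤ A) (s μ : ℝ)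
    (x : Fin L → ℝ) : MemLp (fun d => logZ (totalH f s x d)) 2 (disLaw N L μ) := by
  have h1 : MemLp (fun d : Dis N L => A * (d.1 : ℝ)) 2 (disLaw N L μ) :=
    ((Vale.Agent.P168.Toolkit.memLp_count _).comp_fst _).const_mul A
  have h2 := ((memLp_const (|logZ (fun _ : Cube N => (0 : ℝ))|)).add h1).add
    ((memLp_absJ (N := N) (L := L) μ).const_mul (|s| * ∑ P, |x P|))
  have hm : Measurable fun d : Dis N L => logZ (totalH f s x d) :=
    (Finset.measurable_sum _ fun σ _ =>
      ((measurable_totalH hf s σ).comp measurable_prodMk_left).exp).log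
  exact h2.mono hm.aestronglyMeasurable (ae_of_all _ fun d => by
    rw [Real.norm_eq_abs, Real.norm_eq_abs]
    exact (abs_logZ_totalH_le hb s x d).trans (le_abs_self _))

end Vale.Agent.P157.Parisi.Perturb
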